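import Mathlib

/-!
A rotation-invariant finite measure and the standard Gaussian integrate positively
homogeneous functions of degree one in the same proportion (pool job 423, parallel copy).

Route: for w distributed by the invariant measure and g an independent standard Gaussian,
the vectors |g| w and |w| g have the same law (equal characteristic functions); integrating
the homogeneous function against the two laws gives the identity.
-/

namespace Vale.Agent.Lib.P226.H96

open MeasureTheory ProbabilityTheory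

variable {E : Type*} [NormedAddCommGroup E] [InnerProductSpace ℝ E]
    [FiniteDimensional ℝ E] [MeasurableSpace E] [BorelSpace E]

omit [FiniteDimensional ℝ E] in
/-- The characteristic function of a rotation-invariant measure depends only on the norm. -/
theorem charFun_eq_of_norm_eq (μ : Measure E) (hμ : ∀ U : E ≃ₗᵢ[ℝ] E, μ.map U = μ)
    {t t' : E} (htt : ‖t‖ = ‖t'‖) : charFun μ t = charFun μ t' := by
  obtain ⟨U, hUt⟩ : ∃ U : E ≃ₗᵢ[ℝ] E, U t = t' :=
    ⟨(Submodule.span ℝ {t - t'})ᗮ.reflection, Submodule.reflection_sub htt⟩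
  have hc : Continuous (fun x : E => Complex.exp ((inner ℝ x t' : ℝ) * Complex.I)) := by
    fun_prop
  have h1 : charFun μ t' = charFun (μ.map U) t' := by rw [hμ U]
  rw [h1, charFun_apply, charFun_apply,
    integral_map U.continuous.measurable.aemeasurable hc.measurable.aestronglyMeasurable]
  refine integral_congr_ae (ae_of_all _ fun w => ?_)
  show Complex.exp ((inner ℝ w t : ℝ) * Complex.I) = Complex.exp ((inner ℝ (U w) t' : ℝ) * Complex.I)
  rw [← hUt, U.inner_map_map]

theorem integrable_cexp {X : Type*} [MeasurableSpace X] (ρ : Measure X) [IsFiniteMeasure ρ]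
    (r : X → ℝ) (hr : Measurable r) :
    Integrable (fun p : X => Complex.exp ((r p : ℂ) * Complex.I)) ρ := by
  have hc : Continuous (fun x : ℝ => Complex.exp ((x : ℂ) * Complex.I)) := by fun_prop
  refine Integrable.of_bound (hc.measurable.comp hr).aestronglyMeasurable 1
    (ae_of_all _ fun p => ?_)
  rw [Complex.norm_exp_ofReal_mul_I]

/-- For w distributed by a rotation-invariant finite measure and g an independent standard
Gaussian, the vectors |g| w and |w| g have the same law. -/
theorem map_norm_smul_eq (μ : Measure E) [IsFiniteMeasure μ]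
    (hμ : ∀ U : E ≃ₗᵢ[ℝ] E, μ.map U = μ) :
    (μ.prod (stdGaussian E)).map (fun p : E × E => ‖p.2‖ • p.1)
      = (μ.prod (stdGaussian E)).map (fun p : E × E => ‖p.1‖ • p.2) := by
  have hS1 : Measurable (fun p : E × E => ‖p.2‖ • p.1) := (measurable_snd.norm).smul measurable_fst
  have hS2 : Measurable (fun p : E × E => ‖p.1‖ • p.2) := (measurable_fst.norm).smul measurable_snd
  have : IsFiniteMeasure ((μ.prod (stdGaussian E)).map (fun p : E × E => ‖p.2‖ • p.1)) :=
    Measure.isFiniteMeasure_map _ _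
  have : IsFiniteMeasure ((μ.prod (stdGaussian E)).map (fun p : E × E => ‖p.1‖ • p.2)) :=
    Measure.isFiniteMeasure_map _ _
  apply Measure.ext_of_charFun
  funext t
  have hc : Continuous (fun x : E => Complex.exp ((inner ℝ x t : ℝ) * Complex.I)) := by
    fun_prop
  rw [charFun_apply, charFun_apply, integral_map hS1.aemeasurable hc.measurable.aestronglyMeasurable,
    integral_map hS2.aemeasurable hc.measurable.aestronglyMeasurable]
  have int1 : Integrable (fun p : E × E => Complex.exp ((inner ℝ (‖p.2‖ • p.1) t : ℝ) * Complex.I))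
      (μ.prod (stdGaussian E)) :=
    integrable_cexp _ _ (hS1.inner measurable_const)
  have int2 : Integrable (fun p : E × E => Complex.exp ((inner ℝ (‖p.1‖ • p.2) t : ℝ) * Complex.I))
      (μ.prod (stdGaussian E)) :=
    integrable_cexp _ _ (hS2.inner measurable_const)
  have int3 : Integrable (Function.uncurry fun (g : E) (w : E) =>
      Complex.exp ((inner ℝ w (‖t‖ • g) : ℝ) * Complex.I)) ((stdGaussian E).prod μ) :=
    integrable_cexp _ (fun p : E × E => inner ℝ p.2 (‖t‖ • p.1))
      (measurable_snd.inner (measurable_fst.const_smul ‖t‖))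
  have hA : ∫ p, Complex.exp ((inner ℝ (‖p.2‖ • p.1) t : ℝ) * Complex.I) ∂(μ.prod (stdGaussian E))
      = ∫ g, ∫ w, Complex.exp ((inner ℝ (‖g‖ • w) t : ℝ) * Complex.I) ∂μ ∂(stdGaussian E) :=
    integral_prod_symm _ int1
  have hB : ∫ p, Complex.exp ((inner ℝ (‖p.1‖ • p.2) t : ℝ) * Complex.I) ∂(μ.prod (stdGaussian E))
      = ∫ w, ∫ g, Complex.exp ((inner ℝ (‖w‖ • g) t : ℝ) * Complex.I) ∂(stdGaussian E) ∂μ :=
    integral_prod _ int2
  have hL : ∀ g : E, ∫ w, Complex.exp ((inner ℝ (‖g‖ • w) t : ℝ) * Complex.I) ∂μ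
      = ∫ w, Complex.exp ((inner ℝ w (‖t‖ • g) : ℝ) * Complex.I) ∂μ := by
    intro g
    have e1 : ∫ w, Complex.exp ((inner ℝ (‖g‖ • w) t : ℝ) * Complex.I) ∂μ = charFun μ (‖g‖ • t) := by
      rw [charFun_apply]
      refine integral_congr_ae (ae_of_all _ fun w => ?_)
      show Complex.exp ((inner ℝ (‖g‖ • w) t : ℝ) * Complex.I)
        = Complex.exp ((inner ℝ w (‖g‖ • t) : ℝ) * Complex.I)
      rw [real_inner_smul_left, real_inner_smul_right]
    have e0 : ‖‖g‖ • t‖ = ‖‖t‖ • g‖ := by
      rw [norm_smul, norm_smul, norm_norm, norm_norm, mul_comm]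
    rw [e1, charFun_eq_of_norm_eq μ hμ e0, charFun_apply]
  have hC : ∫ g, ∫ w, Complex.exp ((inner ℝ w (‖t‖ • g) : ℝ) * Complex.I) ∂μ ∂(stdGaussian E)
      = ∫ w, ∫ g, Complex.exp ((inner ℝ w (‖t‖ • g) : ℝ) * Complex.I) ∂(stdGaussian E) ∂μ :=
    integral_integral_swap int3
  rw [hA, hB, integral_congr_ae (ae_of_all _ hL), hC]
  refine integral_congr_ae (ae_of_all _ fun w => ?_)
  have e2 : ∫ g, Complex.exp ((inner ℝ w (‖t‖ • g) : ℝ) * Complex.I) ∂(stdGaussian E)
      = charFun (stdGaussian E) (‖t‖ • w) := by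
    rw [charFun_apply]
    refine integral_congr_ae (ae_of_all _ fun g => ?_)
    show Complex.exp ((inner ℝ w (‖t‖ • g) : ℝ) * Complex.I)
      = Complex.exp ((inner ℝ g (‖t‖ • w) : ℝ) * Complex.I)
    rw [real_inner_smul_right, real_inner_smul_right, real_inner_comm]
  have e3 : ∫ g, Complex.exp ((inner ℝ (‖w‖ • g) t : ℝ) * Complex.I) ∂(stdGaussian E)
      = charFun (stdGaussian E) (‖w‖ • t) := by
    rw [charFun_apply]
    refine integral_congr_ae (ae_of_all _ fun g => ?_)
    show Complex.exp ((inner ℝ (‖w‖ • g) t : ℝ) * Complex.I)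
      = Complex.exp ((inner ℝ g (‖w‖ • t) : ℝ) * Complex.I)
    rw [real_inner_smul_left, real_inner_smul_right]
  show ∫ g, Complex.exp ((inner ℝ w (‖t‖ • g) : ℝ) * Complex.I) ∂(stdGaussian E)
    = ∫ g, Complex.exp ((inner ℝ (‖w‖ • g) t : ℝ) * Complex.I) ∂(stdGaussian E)
  rw [e2, e3, charFun_stdGaussian, charFun_stdGaussian, norm_smul, norm_smul, norm_norm,
    norm_norm, mul_comm]

theorem invariant_integral_hom {E : Type*} [NormedAddCommGroup E] [InnerProductSpace ℝ E]
    [FiniteDimensional ℝ E] [MeasurableSpace E] [BorelSpace E]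
    (μ : Measure E) [IsFiniteMeasure μ]
    (hμ : ∀ U : E ≃ₗᵢ[ℝ] E, μ.map U = μ)
    (hint : Integrable (fun w : E => ‖w‖) μ)
    (h : E → ℝ) (hmeas : Measurable h)
    (hhom : ∀ (t : ℝ), 0 ≤ t → ∀ x, h (t • x) = t * h x)
    (C : ℝ) (hC : ∀ x, |h x| ≤ C * ‖x‖) :
    (∫ g, ‖g‖ ∂(stdGaussian E)) * ∫ w, h w ∂μ
      = (∫ w, ‖w‖ ∂μ) * ∫ g, h g ∂(stdGaussian E) := by
  have hS1 : Measurable (fun p : E × E => ‖p.2‖ • p.1) := (measurable_snd.norm).smul measurable_fst
  have hS2 : Measurable (fun p : E × E => ‖p.1‖ • p.2) := (measurable_fst.norm).smul measurable_snd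
  have hI1 : ∫ x, h x ∂((μ.prod (stdGaussian E)).map (fun p : E × E => ‖p.2‖ • p.1))
      = (∫ w, h w ∂μ) * ∫ g, ‖g‖ ∂(stdGaussian E) := by
    rw [integral_map hS1.aemeasurable hmeas.aestronglyMeasurable, ← integral_prod_mul]
    refine integral_congr_ae (ae_of_all _ fun p => ?_)
    show h (‖p.2‖ • p.1) = h p.1 * ‖p.2‖
    rw [hhom _ (norm_nonneg _), mul_comm]
  have hI2 : ∫ x, h x ∂((μ.prod (stdGaussian E)).map (fun p : E × E => ‖p.1‖ • p.2))
      = (∫ w, ‖w‖ ∂μ) * ∫ g, h g ∂(stdGaussian E) := by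
    rw [integral_map hS2.aemeasurable hmeas.aestronglyMeasurable, ← integral_prod_mul]
    refine integral_congr_ae (ae_of_all _ fun p => ?_)
    show h (‖p.1‖ • p.2) = ‖p.1‖ * h p.2
    rw [hhom _ (norm_nonneg _)]
  rw [mul_comm, ← hI1, map_norm_smul_eq μ hμ, hI2]

end Vale.Agent.Lib.P226.H96
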